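import Vale.Agent.P171.Bridge

/-!
A radial pair potential in three dimensions with a kink in the pressure.
-/

namespace Vale.Agent.Results.P171.PhaseTransition

open MeasureTheory Filter
open scoped ENNReal Topology

/-- There is a measurable, locally bounded, stable, tempered (and lower regular) radial pair
potential on `ℝ³` and an inverse temperature at which the thermodynamic limit of the pressure
exists for every activity and is not differentiable at some activity. -/
theorem result :
    ∃ φ : ℝ → ℝ, Measurable φ ∧ Vale.Agent.P171.IsLocallyBoundedPotential φ ∧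
      Vale.Agent.P171.IsStablePotential φ ∧ Vale.Agent.P171.IsTemperedPotential φ ∧
      Vale.Agent.P171.IsLowerRegularPotential φ ∧
      ∃ β : ℝ, 0 < β ∧ ∃ P : ℝ → ℝ,
        (∀ z : ℝ, 0 < z →
          (∀ L : ℝ, 0 < L → Vale.Agent.P171.grandZ φ β z L < ⊤) ∧
          Tendsto (fun L : ℝ => (L ^ 3)⁻¹ *
              Real.log (Vale.Agent.P171.grandZ φ β z L).toReal) atTop (𝓝 (P z))) ∧
        ∃ z₀ : ℝ, 0 < z₀ ∧ ¬ DifferentiableAt ℝ P z₀ := by
  open Vale.Agent.P171 in
  obtain ⟨τ, μ, hτ, hnd⟩ := exists_not_differentiable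
  open Vale.Agent.P171 in
  refine ⟨ptl 1 τ, measurable_ptl hτ 1, locallyBounded_ptl hτ, stable_ptl hτ, tempered_ptl hτ,
    lowerRegular_ptl hτ, 1, one_pos, fun z => press τ (Real.log z), fun z hz => ⟨fun L _ => ?_, ?_⟩,
    Real.exp μ, Real.exp_pos μ, fun hd => ?_⟩
  · rw [Vale.Agent.P171.grandZ_eq hz]
    exact Vale.Agent.P171.Xi_lt_top one_pos hτ _ _
  · refine (Vale.Agent.P171.tendsto_press hτ (Real.log z)).congr (fun L => ?_)
    rw [Vale.Agent.P171.grandZ_eq hz, Vale.Agent.P171.logXi, inv_mul_eq_div]
  · refine hnd ?_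
    have := DifferentiableAt.comp μ hd Real.differentiable_exp.differentiableAt
    simpa [Function.comp_def] using this

end Vale.Agent.Results.P171.PhaseTransition
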